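import Crest.Agent.X261.Rn93.Bas
import Crest.Agent.X261.Rn.Defs
import Crest.Agent.X261.Eqv.A

/-!
# Row 261, RELN end (helper93), file `Pol`: from a local shell bound to `Pol`

* `shell_tube`   : a lower bound a.e. near the base point spreads along the fibres;
* `pol_of_loc`   : `Pol` from two weights, a pole and a local shell bound;
* `pol_of_shell` : `Pol` from `Rn.Shell`.
-/

set_option autoImplicit false
set_option linter.unusedSectionVars false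

open Set Filter Topology Metric MeasureTheory

namespace Crest.Agent.X261.Rn93

open Crest.Agent.R275.Geo Crest.Agent.R275.Core144
open Crest.Agent.R273.Defs_333 Crest.Agent.R273.UCov_914
open Crest.Agent.X261.Top Crest.Agent.X261.Psh
open Crest.Agent.X261.Ans (HA)
open Crest.Agent.X261.Ans.Brg
open Crest.Agent.X261.Eqv (TP AE)

noncomputable section

theorem le_of_add_coe {a b : EReal} {c : ℝ} (h : a + c ≤ b + c) : a ≤ b :=
  (EReal.addLECancellable_coe c).add_le_add_iff_right.1 h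

variable {n p : ℕ} {M : Type} [TopologicalSpace M] {B : Atl n M} {L : LB B} {h : HM L}

theorem pshW_add {u : M → EReal} (hu : PshW h u) (a : ℝ) : PshW h fun x => u x + a := fun i =>
  ((hu i).add_const a).congr fun _ _ => add_right_comm _ _ _

theorem pshW_max {u v : M → EReal} (hu : PshW h u) (hv : PshW h v) :
    PshW h fun x => max (u x) (v x) := fun i =>
  ((hu i).sup (hv i)).congr fun _ _ => (max_add_add_right _ _ _)

theorem pshW_of_loc {u : M → EReal} (hu : ∀ x, ∃ v, PshW h v ∧ u =ᶠ[𝓝 x] v) : PshW h u := by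
  intro i
  refine IsPsh.of_nhds fun z hz => ?_
  obtain ⟨v, hv, he⟩ := hu ((B.e i).symm z)
  have h1 : ∀ᶠ w in 𝓝 z, u ((B.e i).symm w) = v ((B.e i).symm w) :=
    ((B.e i).continuousAt_symm hz).eventually he
  refine ⟨_, inter_mem ((B.e i).open_target.mem_nhds hz) h1,
    ((hv i).mono inter_subset_left).congr fun w hw => ?_⟩
  have h2 : u ((B.e i).symm w) = v ((B.e i).symm w) := hw.2
  simp only [h2]

/-- an inequality a.e. on an open set holds everywhere -/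
theorem le_of_ae {u v : M → EReal} (hu : PshW h u) (hv : PshW h v) {O : Set M} (hO : IsOpen O)
    (hle : AE volume (HA.of B) fun x => x ∈ O → u x ≤ v x) {x : M} (hx : x ∈ O) : u x ≤ v x := by
  obtain ⟨i, hi⟩ := B.cover x
  have hz := mem_ti hi hx
  have h1 := (hu i).le_of_ae volume (B.e i).open_target hz.1
    ((hv i).uscAt (B.e i).open_target hz.1) ((isOpen_ti hO).mem_nhds hz)
    ((hle i).mono fun w hw hwO => add_le_add (hw hwO.1 hwO.2) le_rfl)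
  rw [(B.e i).left_inv hi] at h1
  exact le_of_add_coe h1

variable {X : Type} [TopologicalSpace X] {A : Atl n X} {G : Type} [Group G] {D : MonD A G}

/-- a lower bound a.e. near the base point spreads along the fibres -/
theorem shell_tube (F : Fol D p) (h : HM F.L) {x₀ : D.cov G} (hx : x₀ ∈ F.T.M0)
    {U : Set (D.cov G)} (hU : U ∈ 𝓝 x₀) : ∃ r₀ : ℝ, 0 < r₀ ∧ ∀ u v : D.cov G → EReal,
      PshW (D.pullHM (F := G) h) u → PshW (D.pullHM (F := G) h) v → ∀ ρ : ℝ,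
      (AE volume (HA.of (D.atl G)) fun x => x ∈ U → x ∈ F.T.T x₀ → ρ ≤ ‖F.T.π x₀ x‖ → u x ≤ v x) →
      ∀ x ∈ F.T.T x₀, ρ < ‖F.T.π x₀ x‖ → ‖F.T.π x₀ x‖ < r₀ → u x ≤ v x := by
  have hT := F.T.T_opn x₀ hx
  have h1 := (tube_subm F.T hx (F.T.T_mem x₀ hx)).image_mem_nhds
    (inter_mem (interior_mem_nhds.2 hU) (hT.mem_nhds (F.T.T_mem x₀ hx)))
  rw [F.T.π_self x₀ hx] at h1
  obtain ⟨r₀, hr₀, hB⟩ := Metric.mem_nhds_iff.1 h1
  obtain ⟨β, -, hβ⟩ := bas F h hx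
  refine ⟨r₀, hr₀, fun u v hu hv ρ hae x hxT h2 h3 => ?_⟩
  obtain ⟨x', ⟨k1, k2⟩, k3⟩ := hB (mem_ball_zero_iff.2 h3)
  have hO : IsOpen (interior U ∩ (F.T.T x₀ ∩ (fun y => ‖F.T.π x₀ y‖) ⁻¹' Ioi ρ)) :=
    isOpen_interior.inter ((F.T.π_cont x₀ hx).norm.isOpen_inter_preimage hT isOpen_Ioi)
  have h4 : u x' ≤ v x' := le_of_ae hu hv hO
    (hae.mono fun y hy hyO => hy (interior_subset hyO.1) hyO.2.1 (le_of_lt hyO.2.2))
    ⟨k1, k2, by simpa only [mem_preimage, mem_Ioi, k3] using h2⟩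
  have h5 : x ∈ F.T.W x' := by
    rw [F.T.π_fib x₀ hx x' k2]
    exact ⟨hxT, k3.symm⟩
  refine le_of_add_coe (c := β x) ?_
  rw [← hβ u hu x' k2 x h5, ← hβ v hv x' k2 x h5]
  exact add_le_add h4 le_rfl

/-- **`Pol` from two weights, a pole and a local shell bound** -/
theorem pol_of_loc [T2Space X] (F : Fol D p) (h : HM F.L) {φ S : D.cov G → EReal}
    (hφ : PshW (D.pullHM (F := G) h) φ) (hinv : ∀ (g : G) x, φ (g • x) = φ x)
    (h0 : ∀ x, φ x ≤ 0) {x₀ : D.cov G} (hx : x₀ ∈ F.T.M0) {q : (D.atl G).ι}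
    (hq : x₀ ∈ ((D.atl G).e q).source)
    (hint : ∀ N : ℝ, 0 < N → ∃ V ∈ 𝓝 ((D.atl G).e q x₀),
      ∫⁻ z in V, eN N (φ (((D.atl G).e q).symm z)) < ⊤)
    (hS : PshW (D.pullHM (F := G) h) S) (hle : ∀ x, S x ≤ φ x) {c C : ℝ} (hc : 0 < c)
    (hpole : ∀ᶠ z in 𝓝[≠] ((D.atl G).e q x₀), S (((D.atl G).e q).symm z) ≤
      ((c * Real.log ‖z - (D.atl G).e q x₀‖ + C : ℝ) : EReal))
    {U : Set (D.cov G)} (hU : U ∈ 𝓝 x₀) (hsh : ∀ ρ : ℝ, 0 < ρ → ∃ a : ℝ,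
      AE volume (HA.of (D.atl G)) fun x => x ∈ U → x ∈ F.T.T x₀ → ρ ≤ ‖F.T.π x₀ x‖ →
        φ x + a ≤ S x) : Nonempty (Pol F h) := by
  classical
  obtain ⟨r₀, hr₀, hr⟩ := shell_tube F h hx hU
  have hT := F.T.T_opn x₀ hx
  have key : ∀ ρ : ℝ, 0 < ρ → ∃ a : ℝ, a ≤ 0 ∧ ∀ x ∈ F.T.T x₀, min ρ r₀ / 2 ≤ ‖F.T.π x₀ x‖ →
      ‖F.T.π x₀ x‖ < r₀ → φ x + a ≤ S x := fun ρ hρ => by
    have h1 : 0 < min ρ r₀ := lt_min hρ hr₀
    obtain ⟨a, ha⟩ := hsh (min ρ r₀ / 4) (by positivity)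
    refine ⟨min a 0, min_le_right _ _, fun x hxT h2 h3 => le_trans ?_
      (hr _ _ (pshW_add hφ a) hS _ ha x hxT (by linarith) h3)⟩
    exact add_le_add le_rfl (EReal.coe_le_coe_iff.2 (min_le_left _ _))
  choose! a ha0 ha using key
  have hop : ∀ r : ℝ, IsOpen {x | x ∈ F.T.T x₀ ∧ ‖F.T.π x₀ x‖ < r} := fun r =>
    (F.T.π_cont x₀ hx).norm.isOpen_inter_preimage hT isOpen_Iio
  refine ⟨{
    φ := φ, φ_psh := hφ, φ_inv := hinv, φ_le := h0, x₀ := x₀, x₀_mem := hx, q := q, q_mem := hq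
    int := hint, c := c, c_pos := hc
    S := fun ρ x => if x ∈ F.T.T x₀ ∧ ‖F.T.π x₀ x‖ < min ρ r₀ / 2 then S x
      else max (S x) (φ x + a ρ)
    S_psh := fun ρ hρ => pshW_of_loc fun x => ?_
    S_le := fun ρ hρ x => ?_
    S_ge := fun ρ hρ => ⟨-a ρ, fun x hx' => ?_⟩
    S_pole := fun ρ hρ => ⟨C, ?_⟩ }⟩
  · have h1 : 0 < min ρ r₀ := lt_min hρ.1 hr₀
    by_cases hx1 : x ∈ F.T.T x₀ ∧ ‖F.T.π x₀ x‖ < r₀
    · refine ⟨S, hS, ?_⟩
      filter_upwards [(hop r₀).mem_nhds hx1] with y hy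
      split_ifs with h2
      · rfl
      · exact max_eq_left (ha ρ hρ.1 y hy.1 (not_lt.1 fun h3 => h2 ⟨hy.1, h3⟩) hy.2)
    · refine ⟨_, pshW_max hS (pshW_add hφ (a ρ)), ?_⟩
      have h2 := (F.T.π_prop x₀ hx (min ρ r₀ / 2)
        (by linarith [min_le_left ρ r₀, hρ.2])).isClosed.isOpen_compl
      filter_upwards [h2.mem_nhds (x := x) fun h3 =>
        hx1 ⟨h3.1, by linarith [h3.2, min_le_right ρ r₀]⟩] with y hy
      exact if_neg fun h3 => hy ⟨h3.1, h3.2.le⟩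
  · split_ifs
    · exact hle x
    · refine max_le (hle x) ?_
      simpa using add_le_add (le_refl (φ x)) (EReal.coe_le_coe_iff.2 (ha0 ρ hρ.1))
  · have h1 : 0 < min ρ r₀ := lt_min hρ.1 hr₀
    rw [if_neg fun h3 => hx' ⟨h3.1, by linarith [h3.2, min_le_left ρ r₀]⟩, EReal.coe_neg,
      sub_eq_add_neg, neg_neg]
    exact le_max_right _ _
  · have h1 : 0 < min ρ r₀ := lt_min hρ.1 hr₀
    have h2 := (hop (min ρ r₀ / 2)).mem_nhds (x := x₀)
      ⟨F.T.T_mem x₀ hx, by rw [F.T.π_self x₀ hx, norm_zero]; positivity⟩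
    filter_upwards [hpole, nhdsWithin_le_nhds
      ((HA.ev_chart (A := HA.of (D.atl G)) (i := q) hq).1 h2)] with z hz hz'
    exact (if_pos hz').trans_le hz

/-- **the end of `RelnAStmt`** -/
theorem pol_of_shell [T2Space X] [Nonempty (D.cov G)] (F : Fol D p) (h : HM F.L)
    (T : TP volume (HA.of (D.atl G)) G) (hw : T.wt = Rn.wtD D h) (h0 : ∀ x, T.φ x ≤ 0)
    (hS : Rn.Shell F.T T) : Nonempty (Pol F h) := by
  obtain ⟨y, -, hy, ht, k, U, hU, hsh⟩ :=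
    hS.exists_mem (x := Classical.arbitrary _) (W := univ) univ_mem
  obtain ⟨q, hq⟩ := (D.atl G).cover y
  obtain ⟨c, hc, hp⟩ := ht.pole k
  obtain ⟨C, hC⟩ := hp q hq
  have h1 := T.φ_psh
  have h2 := ht.psh k
  rw [hw] at h1 h2
  refine pol_of_loc F h h1 T.φ_inv h0 hy hq (fun N hN => (ht.good N hN).chart (i := q) hq) h2
    (ht.le k) hc hC hU fun ρ hρ => ?_
  obtain ⟨a, ha⟩ := hsh ρ hρ
  refine ⟨a, ((ht.eq k).and T.M0_ae).mono fun x hx k1 k2 k3 => ?_⟩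
  rw [hx.1, add_comm]
  exact add_le_add (ha x k1 k2 k3 hx.2) le_rfl

end

end Crest.Agent.X261.Rn93
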